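import Vale.Agent.P011UT4.Defs
import Mathlib.Algebra.Lie.CartanCriterion
import Mathlib.Algebra.Lie.Derivation.Killing

/-!
Simple Lie algebras in characteristic zero: Killing form, derivations, Jacobson-Morozov.
-/

set_option autoImplicit false
set_option linter.all false

namespace Vale.Agent.P011UZK

open Matrix LieAlgebra Vale.Agent.P011UT4

attribute [local instance 100] LieRing.ofAssociativeRing

section
variable {k R : Type} [Field k] [CharZero k] [Ring R] [Algebra k R] {A B C : R}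

theorem pw_comm (h : A * B - B * A = C) (hc : Commute A C) (i : ℕ) :
    A ^ (i + 1) * B = B * A ^ (i + 1) + ((i : k) + 1) • (C * A ^ i) := by
  induction i with
  | zero => simp [← h]
  | succ i ih =>
    rw [pow_succ' A (i + 1), mul_assoc, ih, mul_add, ← mul_assoc, sub_eq_iff_eq_add.1 h,
      mul_smul_comm, ← mul_assoc A C, hc.eq, mul_assoc C, ← pow_succ', add_mul, mul_assoc B,
      Nat.cast_succ, add_smul ((i : k) + 1), one_smul]
    abel

include k in
theorem nil_mul (h : A * B - B * A = C) (hc : Commute A C) (hA : IsNilpotent A) :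
    IsNilpotent (A * B) := by
  obtain ⟨n, hn⟩ := hA
  obtain ⟨N, hN⟩ : IsNilpotent C := by
    have : ∀ i, (∃ a, C ^ a * A ^ i = 0) → IsNilpotent C := fun i => by
      induction i with
      | zero => exact fun ⟨a, e⟩ => ⟨a, by simpa using e⟩
      | succ i ih =>
        refine fun ⟨a, e⟩ => ih ⟨a + 1 + a, ?_⟩
        have h1 := congrArg (fun X => C ^ a * X * C ^ a) (pw_comm (k := k) h hc i)
        simp only [mul_add, add_mul, ← mul_assoc, e, zero_mul, mul_smul_comm, smul_mul_assoc] at h1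
        rw [mul_assoc _ _ (C ^ a), (hc.pow_pow _ _).eq, e, mul_zero, zero_add, eq_comm,
          mul_assoc _ _ (C ^ a), (hc.pow_pow _ _).eq, ← mul_assoc, ← pow_succ, ← pow_add] at h1
        exact (IsUnit.smul_eq_zero (Nat.cast_add_one_ne_zero i).isUnit).1 h1
    exact this n ⟨0, by simp [hn]⟩
  have a : ∀ (i : ℕ) W, A ^ (i + 1) * W = 0 → A ^ i * (A * B * W) = (((i : k) + 1) • C) * (A ^ i * W) :=
    fun i W e => by
      rw [← mul_assoc, ← mul_assoc, ← pow_succ, pw_comm (k := k) h hc, add_mul, mul_assoc, e,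
        mul_zero, zero_add, smul_mul_assoc, smul_mul_assoc, mul_assoc]
  have b : ∀ (i : ℕ) W, A ^ (i + 1) * W = 0 → ∀ m : ℕ, A ^ (i + 1) * ((A * B) ^ m * W) = 0 ∧
      A ^ i * ((A * B) ^ m * W) = (((i : k) + 1) • C) ^ m * (A ^ i * W) := fun i W e m => by
    induction m with
    | zero => simp [e]
    | succ m ih =>
      have c := a i _ ih.1
      rw [pow_succ' (A * B), mul_assoc (A * B), ← mul_assoc (A * B)] at *
      refine ⟨?_, ?_⟩
      · rw [pow_succ' A, mul_assoc, mul_assoc (A * B), ← mul_assoc (A * B), c, ← mul_assoc,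
          (hc.smul_right _).eq, mul_assoc, ← mul_assoc A, ← pow_succ', ih.1, mul_zero]
      · rw [c, ih.2, ← mul_assoc, ← pow_succ']
  have c : ∀ i W, A ^ i * W = 0 → (A * B) ^ (N * i) * W = 0 := fun i => by
    induction i with
    | zero => simp
    | succ i ih =>
      intro W e
      rw [Nat.mul_succ, pow_add, mul_assoc]
      exact ih _ (by rw [(b i W e N).2, _root_.smul_pow, hN, smul_zero, zero_mul])
  exact ⟨N * n, by simpa using c n 1 (by simp [hn])⟩

theorem pw_comm' (h : A * B - B * A = C) (hc : C * A - A * C = (2 : k) • A) (i : ℕ) :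
    A ^ (i + 1) * B = B * A ^ (i + 1) + ((i : k) + 1) • (C * A ^ i - (i : k) • A ^ i) := by
  induction i with
  | zero => simp [← h]
  | succ i ih =>
    rw [pow_succ' A (i + 1), mul_assoc, ih, mul_add, ← mul_assoc, sub_eq_iff_eq_add.1 h,
      mul_smul_comm, mul_sub, ← mul_assoc A C, show A * C = C * A - (2 : k) • A by rw [← hc]; abel,
      mul_smul_comm, sub_mul, smul_mul_assoc, mul_assoc C, ← pow_succ', add_mul, mul_assoc B,
      Nat.cast_succ]
    module

end

/-- **Jacobson-Morozov.** -/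
theorem jm {k L : Type} [Field k] [CharZero k] [LieRing L] [LieAlgebra k L]
    [FiniteDimensional k L] [IsKilling k L] {x : L} (hx : IsNilpotent (ad k L x)) :
    ∃ h f : L, ⁅h, x⁆ = (2 : k) • x ∧ ⁅h, f⁆ = -((2 : k) • f) ∧ ⁅x, f⁆ = h := by
  have nd := IsKilling.killingForm_nondegenerate k L
  have sy := (LieModule.traceForm_isSymm k L L).isRefl
  have br : ∀ y z : L, ad k L y * ad k L z - ad k L z * ad k L y = ad k L ⁅y, z⁆ := fun y z =>
    ((ad k L).map_lie y z).symm
  obtain ⟨z', hz⟩ : x ∈ LinearMap.range (ad k L x * ad k L x) := by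
    rw [← LinearMap.BilinForm.orthogonal_orthogonal nd sy (LinearMap.range _)]
    intro z hz
    have h1 : ⁅x, ⁅x, z⁆⁆ = 0 := nd.1 _ fun y => by
      rw [LieModule.traceForm_comm, ← LieModule.traceForm_apply_lie_apply,
        ← LieModule.traceForm_apply_lie_apply, ← lie_skew, ← lie_skew y, lie_neg, neg_neg]
      exact hz _ ⟨y, rfl⟩
    refine sy _ _ (LinearMap.isNilpotent_trace_of_isNilpotent
      (nil_mul (k := k) (br x z) (sub_eq_zero.1 ?_) hx)).eq_zero
    rw [br, h1, map_zero]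
  obtain ⟨z, hz⟩ : ∃ z, ⁅⁅x, z⁆, x⁆ = (2 : k) • x := ⟨-((2 : k) • z'), by
    rw [← lie_skew, lie_neg, lie_neg, neg_neg, lie_smul, lie_smul]
    exact congrArg _ hz⟩
  obtain ⟨h, hh⟩ : ∃ h, ⁅x, z⁆ = h := ⟨_, rfl⟩
  rw [hh] at hz
  have a : ∀ w : L, ⁅x, ⁅h, w⁆⁆ = ⁅h, ⁅x, w⁆⁆ - (2 : k) • ⁅x, w⁆ := fun w => by
    rw [leibniz_lie x h, ← lie_skew x h, hz, neg_lie, smul_lie]
    abel
  let g : LinearMap.ker (ad k L x) →ₗ[k] LinearMap.ker (ad k L x) :=
    (ad k L h + (2 : k) • 1).restrict fun w hw => by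
      have hw : ⁅x, w⁆ = 0 := hw
      show ⁅x, ⁅h, w⁆ + (2 : k) • w⁆ = 0
      simp [a, hw]
  have inj : Function.Injective g := (injective_iff_map_eq_zero g).2 fun w e => by
    have h1 : ad k L h w.1 = -((2 : k) • w.1) := eq_neg_of_add_eq_zero_left (congrArg Subtype.val e)
    have h2 : ∀ i, ∃ v, (ad k L x ^ i) v = w.1 := fun i => by
      induction i with
      | zero => exact ⟨w, rfl⟩
      | succ i ih =>
        obtain ⟨v, hv⟩ := ih
        have := DFunLike.congr_fun (pw_comm' (k := k) ((br x z).trans (congrArg _ hh))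
          ((br h x).trans (by rw [hz, map_smul])) i) v
        simp only [LinearMap.add_apply, LinearMap.smul_apply, LinearMap.sub_apply,
          Module.End.mul_apply, hv, h1, pow_succ' (ad k L x), show ad k L x w.1 = 0 from w.2,
          map_zero, zero_add] at this
        refine ⟨(-(((i : k) + 1) * ((i : k) + 1 + 1)))⁻¹ • ad k L z v, ?_⟩
        rw [map_smul, pow_succ', Module.End.mul_apply, this, inv_smul_eq_iff₀ (neg_ne_zero.2
          (mul_ne_zero (Nat.cast_add_one_ne_zero i) (Nat.cast_succ (R := k) i ▸ Nat.cast_add_one_ne_zero _)))]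
        module
    obtain ⟨n, hn⟩ := hx
    obtain ⟨v, hv⟩ := h2 n
    exact Subtype.ext (by rw [← hv, hn]; rfl)
  obtain ⟨w, hw⟩ := LinearMap.injective_iff_surjective.1 inj ⟨⁅h, z⁆ + (2 : k) • z, by
    show ⁅x, _⁆ = 0
    simp [a, hh]⟩
  have hw : ⁅h, w.1⁆ + (2 : k) • w.1 = ⁅h, z⁆ + (2 : k) • z := congrArg Subtype.val hw
  refine ⟨h, z - w.1, hz, ?_, by rw [lie_sub, hh, show ⁅x, w.1⁆ = 0 from w.2, sub_zero]⟩
  rw [lie_sub, eq_sub_of_add_eq hw]
  module

variable {k n : Type} [Field k] [Fintype n] [DecidableEq n] {M : n → Matrix n n k}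

theorem adm_add (x y : n → k) : adm M (x + y) = adm M x + adm M y := by
  ext a b
  simp [adm, add_mul, Finset.sum_add_distrib]

/-- The underlying space. -/
def LT (_ : (∀ x, adm M x *ᵥ x = 0) ∧
    ∀ x y, adm M (adm M x *ᵥ y) = adm M x * adm M y - adm M y * adm M x) : Type := n → k

variable {h : (∀ x, adm M x *ᵥ x = 0) ∧
  ∀ x y, adm M (adm M x *ᵥ y) = adm M x * adm M y - adm M y * adm M x}

instance : LieRing (LT h) :=
  { (inferInstance : AddCommGroup (n → k)) with
    bracket := fun x y => adm M x *ᵥ y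
    add_lie := fun x y z => (congrArg (· *ᵥ z) (adm_add x y)).trans (add_mulVec _ _ _)
    lie_add := fun x y z => mulVec_add _ _ _
    lie_self := h.1
    leibniz_lie := fun x y z : n → k => show
      adm M x *ᵥ (adm M y *ᵥ z) = adm M (adm M x *ᵥ y) *ᵥ z + adm M y *ᵥ (adm M x *ᵥ z) by
      rw [h.2, sub_mulVec, mulVec_mulVec, mulVec_mulVec, sub_add_cancel] }

instance : LieAlgebra k (LT h) :=
  { (inferInstance : Module k (n → k)) with
    lie_smul := fun t x y => mulVec_smul _ _ _ }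

theorem kil : KIL := by
  intro k n _ _ _ _ M h1 h2 ⟨x0, h3⟩ h4
  haveI : FiniteDimensional k (LT ⟨h1, h2⟩) := inferInstanceAs (FiniteDimensional k (n → k))
  haveI : IsSimple k (LT ⟨h1, h2⟩) :=
    ⟨fun I => (h4 I.toSubmodule fun _ _ => I.lie_mem).imp
      (fun e => LieSubmodule.toSubmodule_injective e) fun e => LieSubmodule.toSubmodule_injective e,
      fun c => h3 (ext_of_mulVec_single fun j =>
        (c.trivial (show LT ⟨h1, h2⟩ from x0) (show LT ⟨h1, h2⟩ from Pi.single j 1)).trans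
          (zero_mulVec _).symm)⟩
  have a : ∀ x : LT ⟨h1, h2⟩, ad k _ x = toLin' (adm M x) := fun x => LinearMap.ext fun _ => rfl
  refine ⟨?_, fun X hX => ?_, fun x _ hx => jm (k := k) (L := LT ⟨h1, h2⟩) (x := x) ?_⟩
  · have := (LinearMap.BilinForm.nondegenerate_iff_det_ne_zero (Pi.basisFun k n)).1
      (IsKilling.killingForm_nondegenerate k (LT ⟨h1, h2⟩))
    refine fun c => this (Eq.trans (congrArg det (Matrix.ext fun i j => ?_)) c)
    refine (LinearMap.BilinForm.toMatrix_apply _ _ _ _).trans ?_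
    rw [Pi.basisFun_apply, Pi.basisFun_apply]
    refine (killingForm_apply_apply k (LT ⟨h1, h2⟩) _ _).trans ?_
    exact (congrArg (LinearMap.trace k (n → k)) (toLin'_mul _ _).symm).trans (trace_toLin'_eq _)
  · have b : ∀ x y, (dt M).mu x y = adm M x *ᵥ y := fun x y => funext fun i => by
      simp only [P011ND.Dt.mu, P011ND.bf, dt, adm, dotProduct, mulVec, of_apply, Finset.mul_sum,
        Finset.sum_mul, mul_assoc]
      exact Finset.sum_comm
    have c := (P011ND.Dt.lie_iff.1 hX).2.2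
    simp only [b] at c
    obtain ⟨y, hy⟩ := LieDerivation.IsKilling.exists_eq_ad (R := k) (L := LT ⟨h1, h2⟩)
      ⟨toLin' X, fun x y => (c x y).trans ((add_comm _ _).trans ((congrArg _
        (lie_skew (L := LT ⟨h1, h2⟩) _ _).symm).trans (sub_eq_add_neg _ _).symm))⟩
    exact ⟨y, ext_of_mulVec_single fun j => (DFunLike.congr_fun hy (Pi.single j 1)).symm.trans
      (LieDerivation.ad_apply_apply ..)⟩
  · exact a x ▸ hx.map toLinAlgEquiv'

end Vale.Agent.P011UZK
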